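import Vale.Agent.P126.Power.Search

/-!
P126: the bounded step with every exponent above one, at precision `1 / (256 R)`.
-/

open Finset Real
open scoped RealInnerProductSpace Pointwise Classical

namespace Vale.Agent.P126.Power

variable {E : Type*} [NormedAddCommGroup E] [InnerProductSpace ℝ E] [FiniteDimensional ℝ E]

/-- Every natural number is bounded by its power of two. -/
theorem self_le_two_pow (R : ℕ) : R ≤ 2 ^ R := Nat.lt_two_pow_self.le

/-- The constant of the bounded step. -/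
def stepConst : ℝ := 100000000000000000000

theorem two_le_card_of_sep {L : Set E} {P Q : Finset E} {η : ℝ} (hL : IsBody L)
    (hnet : ∀ y ∈ polar L, ∃ p ∈ Q, ∀ x ∈ P, |⟪x, y - p⟫| ≤ η) (hη : η ≤ 1 / 16)
    (hsep : ∀ x ∈ P, ∀ x' ∈ P, x ≠ x' → ∃ y ∈ polar L, 1 / 4 < ⟪x - x', y⟫)
    (hP : 1 < P.card) : 2 ≤ Q.card := by
  by_contra hlt
  obtain ⟨x, hx, x', hx', hne⟩ := Finset.one_lt_card.1 hP
  obtain ⟨y, hy, hy4⟩ := hsep x hx x' hx' hne
  obtain ⟨p, hp, hp'⟩ := hnet y hy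
  obtain ⟨q, hq, hq'⟩ := hnet (-y) (hL.isBody_polar.2.2.2 y hy)
  obtain rfl : q = p := Finset.card_le_one.1 (by omega) q hq p hp
  have a := abs_le.1 (hp' x hx)
  have b := abs_le.1 (hq' x hx)
  have a' := abs_le.1 (hp' x' hx')
  have b' := abs_le.1 (hq' x' hx')
  simp only [inner_sub_right, inner_neg_right] at a b a' b'
  rw [inner_sub_left] at hy4
  linarith

omit [InnerProductSpace ℝ E] [FiniteDimensional ℝ E] [NormedAddCommGroup E] in
theorem log_symbols_le {Q : Finset E} (R : ℕ) (hR : 1 ≤ R) (hQ : 2 ≤ Q.card) :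
    log ((2 * symbols Q (1 / (256 * R)) : ℕ) : ℝ) ≤ 19 * R * log Q.card := by
  have hR1 : (1 : ℝ) ≤ R := by exact_mod_cast hR
  have hq2 : (2 : ℝ) ≤ Q.card := by exact_mod_cast hQ
  have hh2 : log 2 ≤ log (Q.card : ℝ) := log_le_log two_pos hq2
  have hl2 : (0 : ℝ) ≤ log 2 := log_nonneg one_le_two
  have hRp : (R : ℝ) ≤ 2 ^ R := by exact_mod_cast self_le_two_pow R
  have h1 : ((2 * symbols Q (1 / (256 * R)) : ℕ) : ℝ) ≤ 2 ^ 11 * 2 ^ R * Q.card := by
    rw [symbols, one_div_one_div, show (256 : ℝ) * R = ((256 * R : ℕ) : ℝ) by push_cast; ring,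
      Nat.ceil_natCast]
    push_cast
    calc 2 * ((Q.card : ℝ) * (2 * (256 * R + 1) + 1)) = (1024 * R + 6) * Q.card := by ring
      _ ≤ _ := mul_le_mul_of_nonneg_right (by linarith) (Nat.cast_nonneg _)
  have hpos : (0 : ℝ) < ((2 * symbols Q (1 / (256 * R)) : ℕ) : ℝ) := by
    have : 0 < 2 * symbols Q (1 / (256 * R)) := by rw [symbols]; positivity
    exact_mod_cast this
  refine (log_le_log hpos h1).trans ?_
  rw [log_mul (by positivity) (by positivity), log_mul (by positivity) (by positivity), log_pow,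
    log_pow]
  push_cast
  nlinarith [mul_le_mul_of_nonneg_left hh2 (show (0 : ℝ) ≤ R by positivity),
    mul_le_mul_of_nonneg_right hR1 (show (0 : ℝ) ≤ log (Q.card : ℝ) by linarith)]

/-- The number of gains as a power. -/
theorem gains_le (R : ℕ) (hR : 1 ≤ R) {k x X : ℝ} (hk : 1 ≤ k) (hx : x = (8 * k) ^ ((R : ℝ)⁻¹))
    (hX : X = max 2 x) :
    (⌈X * log (8 * k)⌉₊ : ℝ) ≤ 2 * (R * (4 + (8 * k) ^ (2 / (R : ℝ)))) := by
  have hR1 : (1 : ℝ) ≤ R := by exact_mod_cast hR
  have hxR : x ^ R = 8 * k := hx ▸ rpow_inv_natCast_pow (by positivity) (by omega)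
  have hx1 : 1 ≤ x := hx ▸ one_le_rpow (by linarith) (by positivity)
  have hX2 : 2 ≤ X := hX ▸ le_max_left _ _
  have hlk : log (8 * k) ≤ R * X := by
    rw [← hxR, log_pow]
    refine mul_le_mul_of_nonneg_left ?_ (by positivity)
    have := log_le_sub_one_of_pos (show 0 < x by linarith)
    have : x ≤ X := hX ▸ le_max_right 2 x
    linarith
  have hsq : x ^ 2 = (8 * k) ^ (2 / (R : ℝ)) := by
    rw [hx, ← rpow_natCast, ← rpow_mul (by positivity), Nat.cast_two, div_eq_inv_mul]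
  have hX2' : X ^ 2 ≤ 4 + (8 * k) ^ (2 / (R : ℝ)) := by
    rw [← hsq]
    rcases max_choice 2 x with h | h <;> rw [hX, h] <;> nlinarith [sq_nonneg x]
  have h1 := Nat.ceil_lt_add_one (show 0 ≤ X * log (8 * k) from
    mul_nonneg (by linarith) (log_nonneg (by linarith)))
  have h2 := mul_le_mul_of_nonneg_left hlk (show 0 ≤ X by linarith)
  have h3 := mul_le_mul_of_nonneg_left hX2' (show (0 : ℝ) ≤ R by positivity)
  have h4 : (0 : ℝ) ≤ (R : ℝ) * (8 * k) ^ (2 / (R : ℝ)) := by positivity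
  nlinarith

/-- The final arithmetic. -/
theorem power_arith (R : ℕ) (hR : 1 ≤ R) {k h i ls m : ℝ} (hk : 1 ≤ k) (hkh : k ≤ 140000 * h)
    (hh : 0.69 < h) (hi : i ≤ 2 * (R * (4 + (8 * k) ^ (2 / (R : ℝ)))))
    (hls : ls ≤ 19 * R * h) (hls0 : 0 ≤ ls)
    (hm : m ≤ i * ls + R * log 2 + (log (4 / 3) + 2 * (m / 8 + 1))) :
    m ≤ stepConst * (R : ℝ) ^ 2 * h ^ (1 + 2 / (R : ℝ)) := by
  have hR1 : (1 : ℝ) ≤ R := by exact_mod_cast hR
  have hp0 : 0 ≤ 2 / (R : ℝ) := by positivity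
  have hp2 : 2 / (R : ℝ) ≤ ((2 : ℕ) : ℝ) := by
    rw [div_le_iff₀ (by positivity)]; push_cast; linarith
  have hhpos : 0 < h := by linarith
  have hkp : (8 * k) ^ (2 / (R : ℝ)) ≤ 1120000 ^ (2 : ℕ) * h ^ (2 / (R : ℝ)) := by
    calc (8 * k) ^ (2 / (R : ℝ)) ≤ (1120000 * h) ^ (2 / (R : ℝ)) :=
          rpow_le_rpow (by positivity) (by linarith) hp0
      _ = 1120000 ^ (2 / (R : ℝ)) * h ^ (2 / (R : ℝ)) := mul_rpow (by norm_num) hhpos.le
      _ ≤ _ := by
          refine mul_le_mul_of_nonneg_right ?_ (rpow_nonneg hhpos.le _)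
          rw [← rpow_natCast (1120000 : ℝ) 2]
          exact rpow_le_rpow_of_exponent_le (by norm_num) hp2
  have hlow : (1 : ℝ) / 4 ≤ h ^ (2 / (R : ℝ)) := by
    calc (1 : ℝ) / 4 = (1 / 2 : ℝ) ^ (2 : ℕ) := by norm_num
      _ ≤ (1 / 2 : ℝ) ^ (2 / (R : ℝ)) := by
          rw [← rpow_natCast (1 / 2 : ℝ) 2]
          exact rpow_le_rpow_of_exponent_ge (by norm_num) (by norm_num) hp2
      _ ≤ _ := rpow_le_rpow (by norm_num) (by linarith) hp0
  rw [rpow_add hhpos, rpow_one, stepConst, mul_assoc]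
  set Z := h ^ (2 / (R : ℝ))
  have hZ0 : 0 ≤ Z := by linarith
  have hc1 : log (4 / 3 : ℝ) ≤ 1 / 3 := by
    linarith [log_le_sub_one_of_pos (show (0 : ℝ) < 4 / 3 by norm_num)]
  have h1 : 4 + (8 * k) ^ (2 / (R : ℝ)) ≤ 1300000000000 * Z := by linarith
  have hi2 : i ≤ 2600000000000 * (R * Z) := by
    linarith [mul_le_mul_of_nonneg_left h1 (show (0 : ℝ) ≤ R by positivity)]
  have hi3 : i * ls ≤ (2600000000000 * (R * Z)) * (19 * R * h) :=
    mul_le_mul hi2 hls hls0 (by positivity)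
  have hfin : (2600000000000 * ((R : ℝ) * Z)) * (19 * R * h)
      = 49400000000000 * (R ^ 2 * (h * Z)) := by ring
  have hRh : (R : ℝ) ≤ 8 * (R ^ 2 * (h * Z)) := by
    have h1 : (1 : ℝ) / 8 ≤ h * Z := by
      calc (1 : ℝ) / 8 = 1 / 2 * (1 / 4) := by norm_num
        _ ≤ h * Z := mul_le_mul (by linarith) hlow (by norm_num) hhpos.le
    have h2 : (R : ℝ) ≤ R ^ 2 := by nlinarith
    linarith [mul_le_mul_of_nonneg_left h1 (show (0 : ℝ) ≤ (R : ℝ) ^ 2 by positivity)]
  have hlog2 : log 2 ≤ 1 := by linarith [log_le_sub_one_of_pos (show (0 : ℝ) < 2 by norm_num)]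
  have h2R := mul_le_mul_of_nonneg_left hlog2 (show (0 : ℝ) ≤ R by positivity)
  linarith

/-- Separated subsets of `L` are controlled by a power above one of the entropy of the polar. -/
theorem bounded_power {L : Set E} (hL : IsBody L) {P Q : Finset E} (R : ℕ) (hR : 1 ≤ R)
    (hP : ↑P ⊆ L) (hQ : ↑Q ⊆ polar L)
    (hnet : ∀ y ∈ polar L, ∃ p ∈ Q, ∀ x ∈ P, |⟪x, y - p⟫| ≤ 1 / (256 * R))
    (hsep : ∀ x ∈ P, ∀ x' ∈ P, x ≠ x' → ∃ y ∈ polar L, 1 / 4 < ⟪x - x', y⟫) :
    log P.card ≤ stepConst * (R : ℝ) ^ 2 * log Q.card ^ (1 + 2 / (R : ℝ)) := by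
  have hR1 : (1 : ℝ) ≤ R := by exact_mod_cast hR
  rcases le_or_gt P.card 1 with hP1 | hP1
  · have h : log P.card ≤ 0 := log_nonpos (Nat.cast_nonneg _) (by exact_mod_cast hP1)
    have : 0 ≤ stepConst * (R : ℝ) ^ 2 * log Q.card ^ (1 + 2 / (R : ℝ)) :=
      mul_nonneg (by unfold stepConst; positivity) (rpow_nonneg (log_natCast_nonneg _) _)
    linarith
  have hη : (1 : ℝ) / (256 * R) ≤ 1 / 256 := by gcongr; linarith
  have hQ2 := two_le_card_of_sep hL hnet (hη.trans (by norm_num)) hsep hP1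
  have hq2 : (2 : ℝ) ≤ Q.card := by exact_mod_cast hQ2
  set h := log (Q.card : ℝ) with hh
  have hh2 : log 2 ≤ h := log_le_log two_pos hq2
  have hl2 : (0.69 : ℝ) < log 2 := by linarith [log_two_gt_d9]
  -- the sample size
  set k : ℕ := ⌈32768 * log (8 * (Q.card : ℝ))⌉₊ with hk
  have h8 : log (8 * (Q.card : ℝ)) = 3 * log 2 + h := by
    rw [log_mul (by norm_num) (by positivity), show (8 : ℝ) = 2 ^ 3 by norm_num, log_pow, hh]
    norm_num
  have h8pos : 0 < log (8 * (Q.card : ℝ)) := by rw [h8]; linarith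
  have hkle : (k : ℝ) ≤ 140000 * h := by
    have := Nat.ceil_lt_add_one (show 0 ≤ 32768 * log (8 * (Q.card : ℝ)) by positivity)
    rw [← hk] at this
    linarith
  have hk1 : (1 : ℝ) ≤ k := by
    have : 0 < k := Nat.ceil_pos.2 (by positivity)
    exact_mod_cast this
  have hs : Setting L P Q (1 / (256 * R)) (1 / (32 * R)) (1 / 64) R k := by
    refine ⟨hL, hP, hQ, hnet, hsep, by positivity, ?_, by norm_num, ?_, ?_⟩
    · rw [mul_one_div, div_le_div_iff₀ (by positivity) (by positivity)]; linarith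
    · have : (R : ℝ) * (1 / (32 * R)) = 1 / 32 := by field_simp
      linarith
    · have hkk : 32768 * log (8 * (Q.card : ℝ)) ≤ k := Nat.le_ceil _
      calc 2 * (Q.card : ℝ) * exp (-(k * (1 / 64) ^ 2 / 8))
          ≤ 2 * (Q.card : ℝ) * exp (-log (8 * Q.card)) := by gcongr; linarith
        _ = 1 / 4 := by rw [exp_neg, exp_log (by positivity)]; field_simp; norm_num
  -- the rate
  set x : ℝ := (8 * k : ℝ) ^ ((R : ℝ)⁻¹) with hx
  have hxR : x ^ R = 8 * k := rpow_inv_natCast_pow (by positivity) (by omega)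
  have hx1 : 1 ≤ x := one_le_rpow (by linarith) (by positivity)
  set X : ℝ := max 2 x with hX
  have hX2 : 2 ≤ X := le_max_left _ _
  have hXR : (8 * k : ℝ) ≤ X ^ R := hxR ▸ pow_le_pow_left₀ (by linarith) (le_max_right _ _) R
  set θ : ℝ := 1 / X with hθ
  have hθ0 : 0 < θ := by positivity
  have hθ1 : θ ≤ 1 := by rw [hθ, div_le_one (by linarith)]; linarith
  set i : ℕ := ⌈X * log (8 * (k : ℝ))⌉₊ with hi
  set m := log (P.card : ℝ) with hm
  have hm0 : 0 ≤ m := log_natCast_nonneg _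
  set e : ℝ := m / (8 * k) with he
  have hgroup : Group L P P (stdSimplex ℝ P) m m 0 (1 / (32 * R)) := by
    refine ⟨subset_rfl, convex_stdSimplex ℝ P, (isCompact_stdSimplex ℝ P).isClosed, subset_rfl,
      fun ρ hρ => (ent_le_log hρ).trans_eq (by rw [Fintype.card_coe]), fun a ha => ?_⟩
    refine ⟨Pi.single ⟨a, ha⟩ 1, single_mem_stdSimplex ℝ _, ?_, fun g _ => ?_⟩
    · rw [sub_self]
      refine Finset.sum_nonneg fun b _ => negMulLog_nonneg ?_ ?_ <;>
        rcases eq_or_ne b ⟨a, ha⟩ with rfl | hne <;> simp [*]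
    · have : bary P (Pi.single (⟨a, ha⟩ : P) (1 : ℝ)) = a := by
        simp [bary, Pi.single_apply, ite_smul]
      simp [this]
  have hj : m * θ ^ R ≤ e := by
    rw [he, hθ, div_pow, one_pow, mul_one_div]
    exact div_le_div_of_nonneg_left hm0 (by positivity) hXR
  have hi' : m * (1 - θ) ^ i ≤ e := by
    rw [he]
    have h1 : (1 - θ) ^ i ≤ 1 / (8 * k) := by
      calc (1 - θ) ^ i ≤ exp (-θ) ^ i :=
            pow_le_pow_left₀ (by linarith) (by linarith [add_one_le_exp (-θ)]) _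
        _ ≤ exp (-log (8 * (k : ℝ))) := by
            rw [← exp_nat_mul, exp_le_exp, mul_neg, neg_le_neg_iff, hθ, mul_one_div,
              le_div_iff₀ (by linarith)]
            rw [mul_comm]
            exact Nat.le_ceil _
        _ = _ := by rw [exp_neg, exp_log (by positivity), one_div]
    calc m * (1 - θ) ^ i ≤ m * (1 / (8 * k)) := mul_le_mul_of_nonneg_left h1 hm0
      _ = _ := by ring
  have hbound := Group.bound hs hθ0 hθ1 i R P _ m m 0 hgroup hm0 (by omega) hj hi'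
  -- logarithms
  have hsy1 : (1 : ℝ) ≤ ((2 * symbols Q (1 / (256 * R)) : ℕ) : ℝ) := by
    have : 1 ≤ 2 * symbols Q (1 / (256 * R)) := by rw [symbols]; nlinarith
    exact_mod_cast this
  have hP0 : (0 : ℝ) < P.card := by exact_mod_cast (show 0 < P.card by omega)
  have hlog := log_le_log hP0 hbound
  rw [log_mul (by positivity) (by positivity), log_mul (by positivity) (by positivity), log_pow,
    log_pow, log_mul (by positivity) (exp_pos _).ne', log_exp, ← hm] at hlog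
  have hke : (k : ℝ) * e = m / 8 := by rw [he]; field_simp
  rw [hke] at hlog
  exact power_arith R hR hk1 hkle (by linarith) (gains_le R hR hk1 hx hX)
    (log_symbols_le R hR hQ2) (log_nonneg hsy1) hlog

end Vale.Agent.P126.Power
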