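import Mathlib

/-!
P126: finite probability facts for the entropy potential: concentration of averages of samples,
change of measure, and the count of decodable probability vectors of nearly maximal entropy.
-/

open Finset Real

namespace Vale.Agent.P126.Power

variable {ι : Type*} [Fintype ι]

/-- The Shannon entropy of a probability vector. -/
noncomputable def ent (ρ : ι → ℝ) : ℝ := ∑ a, negMulLog (ρ a)

/-- The weight of a sample of length `k`. -/
def wt {k : ℕ} (ρ : ι → ℝ) (t : Fin k → ι) : ℝ := ∏ j, ρ (t j)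

theorem wt_nonneg {k : ℕ} {ρ : ι → ℝ} (hρ : ρ ∈ stdSimplex ℝ ι) (t : Fin k → ι) : 0 ≤ wt ρ t :=
  Finset.prod_nonneg fun i _ => hρ.1 _

theorem sum_wt (k : ℕ) {ρ : ι → ℝ} (hρ : ρ ∈ stdSimplex ℝ ι) :
    ∑ t : Fin k → ι, wt ρ t = 1 := by
  classical
  unfold wt
  rw [← Fintype.prod_sum fun (_ : Fin k) a => ρ a]
  simp [hρ.2]

theorem sum_wt_mul (k : ℕ) {ρ : ι → ℝ} (hρ : ρ ∈ stdSimplex ℝ ι) (φ : ι → ℝ) :
    ∑ t : Fin k → ι, wt ρ t * ∑ i, φ (t i) = k * ∑ a, ρ a * φ a := by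
  classical
  simp only [Finset.mul_sum]
  rw [Finset.sum_comm]
  have key : ∀ i : Fin k, ∑ t : Fin k → ι, wt ρ t * φ (t i) = ∑ a, ρ a * φ a := by
    intro i
    have e : ∀ t : Fin k → ι,
        wt ρ t * φ (t i) = ∏ l, (if l = i then ρ (t l) * φ (t l) else ρ (t l)) := by
      intro t
      unfold wt
      rw [← Finset.mul_prod_erase univ _ (Finset.mem_univ i),
        ← Finset.mul_prod_erase univ (fun l => if l = i then ρ (t l) * φ (t l) else ρ (t l))
          (Finset.mem_univ i), if_pos rfl,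
        Finset.prod_congr rfl (fun l hl => if_neg (Finset.ne_of_mem_erase hl))]
      ring
    rw [Finset.sum_congr rfl (fun t _ => e t),
      ← Fintype.prod_sum fun (l : Fin k) a => if l = i then ρ a * φ a else ρ a,
      ← Finset.mul_prod_erase univ _ (Finset.mem_univ i),
      Finset.prod_eq_one fun l hl => by simp [Finset.ne_of_mem_erase hl, hρ.2]]
    simp
  rw [Finset.sum_congr rfl fun i _ => key i]
  simp [Finset.mul_sum]

theorem mgf_le {ρ : ι → ℝ} (hρ : ρ ∈ stdSimplex ℝ ι) {u : ι → ℝ} (hu : ∀ a, |u a| ≤ 2)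
    (hmean : ∑ a, ρ a * u a = 0) (s : ℝ) :
    ∑ a, ρ a * exp (s * u a) ≤ exp (2 * s ^ 2) := by
  have hpt : ∀ a, exp (s * u a) ≤ (2 - u a) / 4 * exp (-(2 * s)) + (2 + u a) / 4 * exp (2 * s) := by
    intro a
    obtain ⟨h1, h2⟩ := abs_le.1 (hu a)
    have h := convexOn_exp.2 (Set.mem_univ (-(2 * s))) (Set.mem_univ (2 * s))
      (show 0 ≤ (2 - u a) / 4 by linarith) (show 0 ≤ (2 + u a) / 4 by linarith) (by ring)
    simp only [smul_eq_mul] at h
    refine le_trans (le_of_eq ?_) h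
    congr 1; ring
  calc ∑ a, ρ a * exp (s * u a)
      ≤ ∑ a, ρ a * ((2 - u a) / 4 * exp (-(2 * s)) + (2 + u a) / 4 * exp (2 * s)) :=
        Finset.sum_le_sum fun a _ => mul_le_mul_of_nonneg_left (hpt a) (hρ.1 a)
    _ = (∑ a, ρ a) * ((exp (2 * s) + exp (-(2 * s))) / 2) +
          (∑ a, ρ a * u a) * ((exp (2 * s) - exp (-(2 * s))) / 4) := by
        rw [Finset.sum_mul, Finset.sum_mul, ← Finset.sum_add_distrib]
        exact Finset.sum_congr rfl fun a _ => by ring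
    _ = cosh (2 * s) := by rw [hρ.2, hmean, cosh_eq]; ring
    _ ≤ _ := (cosh_le_exp_half_sq _).trans (le_of_eq (by congr 1; ring))

theorem tail_le (k : ℕ) {ρ : ι → ℝ} (hρ : ρ ∈ stdSimplex ℝ ι) {u : ι → ℝ} (hu : ∀ a, |u a| ≤ 2)
    (hmean : ∑ a, ρ a * u a = 0) {w : ℝ} (hw : 0 ≤ w) :
    ∑ t ∈ univ.filter (fun t : Fin k → ι => k * w < ∑ i, u (t i)), wt ρ t
      ≤ exp (-(k * w ^ 2 / 8)) := by
  classical
  set s : ℝ := w / 4 with hs
  have hpt : ∀ t ∈ univ.filter (fun t : Fin k → ι => k * w < ∑ i, u (t i)),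
      wt ρ t ≤ exp (-(s * (k * w))) * ∏ i, ρ (t i) * exp (s * u (t i)) := by
    intro t ht
    rw [Finset.prod_mul_distrib, ← exp_sum, ← Finset.mul_sum]
    calc wt ρ t = wt ρ t * 1 := (mul_one _).symm
      _ ≤ wt ρ t * (exp (-(s * (k * w))) * exp (s * ∑ i, u (t i))) := by
          refine mul_le_mul_of_nonneg_left ?_ (wt_nonneg hρ t)
          rw [← exp_add, one_le_exp_iff]
          nlinarith [(Finset.mem_filter.1 ht).2]
      _ = _ := by rw [wt]; ring
  refine (Finset.sum_le_sum hpt).trans ((Finset.sum_le_univ_sum_of_nonneg fun t =>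
    mul_nonneg (exp_pos _).le
      (Finset.prod_nonneg fun i _ => mul_nonneg (hρ.1 _) (exp_pos _).le)).trans ?_)
  rw [← Finset.mul_sum, ← Fintype.prod_sum fun (_ : Fin k) a => ρ a * exp (s * u a),
    Finset.prod_const, Finset.card_univ, Fintype.card_fin]
  calc exp (-(s * (k * w))) * (∑ a, ρ a * exp (s * u a)) ^ k
      ≤ exp (-(s * (k * w))) * exp (2 * s ^ 2) ^ k :=
        mul_le_mul_of_nonneg_left (pow_le_pow_left₀ (Finset.sum_nonneg fun a _ =>
          mul_nonneg (hρ.1 a) (exp_pos _).le) (mgf_le hρ hu hmean s) k) (exp_pos _).le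
    _ = _ := by rw [← exp_nat_mul, ← exp_add, hs]; congr 1; ring

/-- Change of measure from a comparison vector. -/
theorem change_measure {k : ℕ} {ρ μ : ι → ℝ} (hρ : ρ ∈ stdSimplex ℝ ι)
    (hμ : μ ∈ stdSimplex ℝ ι) {φ : ι → ℝ} (hφ : ∀ a, ρ a * exp (-φ a) ≤ μ a) {S c : ℝ}
    (hS : k * ∑ a, ρ a * φ a ≤ S) (hc : c = 2 * (S + 1)) (hc0 : 0 ≤ c)
    (D : Finset (Fin k → ι)) (hD : 3 / 4 ≤ ∑ t ∈ D, wt ρ t) :
    3 / 4 * exp (-c) ≤ ∑ t ∈ D, wt μ t := by
  classical
  let Φ : (Fin k → ι) → ℝ := fun t => ∑ i, φ (t i)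
  have hexp : ∀ t, wt ρ t * exp (-Φ t) ≤ wt μ t := by
    intro t
    simp only [Φ, wt, ← Finset.sum_neg_distrib, exp_sum, ← Finset.prod_mul_distrib]
    exact Finset.prod_le_prod (fun i _ => mul_nonneg (hρ.1 _) (exp_pos _).le) fun i _ => hφ _
  have hout : -1 ≤ ∑ t ∈ univ \ D, wt ρ t * Φ t := by
    have h1 : ∀ t, -wt μ t ≤ wt ρ t * Φ t := fun t => by
      nlinarith [hexp t, wt_nonneg hρ t,
        mul_le_mul_of_nonneg_left (add_one_le_exp (-Φ t)) (wt_nonneg hρ t)]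
    refine le_trans ?_ (Finset.sum_le_sum fun t _ => h1 t)
    rw [Finset.sum_neg_distrib, neg_le_neg_iff, ← sum_wt k hμ]
    exact Finset.sum_le_univ_sum_of_nonneg fun t => wt_nonneg hμ t
  have hin : ∑ t ∈ D, wt ρ t * Φ t ≤ S + 1 := by
    have h := Finset.sum_sdiff (f := fun t => wt ρ t * Φ t) (Finset.subset_univ D)
    rw [sum_wt_mul k hρ φ] at h
    linarith
  have hp : ∑ t ∈ D, wt ρ t ≤ 1 := by
    rw [← sum_wt k hρ]; exact Finset.sum_le_univ_sum_of_nonneg fun t => wt_nonneg hρ t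
  calc 3 / 4 * exp (-c)
      ≤ exp (-c) * ((1 + c) * ∑ t ∈ D, wt ρ t - ∑ t ∈ D, wt ρ t * Φ t) := by
        rw [mul_comm]
        refine mul_le_mul_of_nonneg_left ?_ (exp_pos _).le
        nlinarith [mul_le_mul_of_nonneg_left hD (show (0 : ℝ) ≤ 1 + c by linarith)]
    _ = ∑ t ∈ D, wt ρ t * (exp (-c) * (1 + (c - Φ t))) := by
        rw [Finset.mul_sum, ← Finset.sum_sub_distrib, Finset.mul_sum]
        exact Finset.sum_congr rfl fun t _ => by ring
    _ ≤ ∑ t ∈ D, wt μ t := Finset.sum_le_sum fun t _ => le_trans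
        (mul_le_mul_of_nonneg_left (by
          calc exp (-c) * (1 + (c - Φ t)) ≤ exp (-c) * exp (c - Φ t) :=
                mul_le_mul_of_nonneg_left (by linarith [add_one_le_exp (c - Φ t)]) (exp_pos _).le
            _ = exp (-Φ t) := by rw [← exp_add]; congr 1; ring)
          (wt_nonneg hρ t)) (hexp t)

/-- Decodable vectors of nearly maximal entropy in a convex set are few. -/
theorem count_le {α : Type*} {k : ℕ} (S : Finset α) (ρ : α → ι → ℝ)
    (hρ : ∀ x ∈ S, ρ x ∈ stdSimplex ℝ ι) {Ω : Set (ι → ℝ)} (hΩ : Convex ℝ Ω)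
    (hρΩ : ∀ x ∈ S, ρ x ∈ Ω) {n B : ℝ} (hn : ∀ μ ∈ Ω, ent μ ≤ n)
    (hB : ∀ x ∈ S, n - B ≤ ent (ρ x)) (D : α → Finset (Fin k → ι))
    (hD : ∀ x ∈ S, 3 / 4 ≤ ∑ t ∈ D x, wt (ρ x) t)
    (hdisj : (S : Set α).PairwiseDisjoint D) :
    (S.card : ℝ) ≤ 4 / 3 * exp (2 * (k * B + 1)) := by
  classical
  rcases S.eq_empty_or_nonempty with rfl | hne
  · simp; positivity
  set N : ℝ := (S.card : ℝ) with hN
  have hN0 : 0 < N := by rw [hN]; exact_mod_cast Finset.card_pos.2 hne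
  set μ : ι → ℝ := fun a => (∑ x ∈ S, ρ x a) / N with hμdef
  have hμe : μ = ∑ x ∈ S, N⁻¹ • ρ x := by
    funext a
    simp [hμdef, Finset.sum_apply, div_eq_inv_mul, Finset.mul_sum]
  have hw1 : ∑ x ∈ S, N⁻¹ = 1 := by simp [← hN, hN0.ne']
  have hμΩ : μ ∈ Ω := hμe ▸ hΩ.sum_mem (fun _ _ => (inv_pos.2 hN0).le) hw1 hρΩ
  have hμ : μ ∈ stdSimplex ℝ ι :=
    hμe ▸ (convex_stdSimplex ℝ ι).sum_mem (fun _ _ => (inv_pos.2 hN0).le) hw1 hρ
  let φ : α → ι → ℝ := fun x a => log (ρ x a) - log (μ a)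
  have hφ : ∀ x ∈ S, ∀ a, ρ x a * exp (-φ x a) ≤ μ a := by
    intro x hx a
    rcases ((hρ x hx).1 a).eq_or_lt with h | h
    · rw [← h, zero_mul]; exact hμ.1 a
    · have hpos : 0 < μ a := div_pos
        (lt_of_lt_of_le h (Finset.single_le_sum (fun z hz => (hρ z hz).1 a) hx)) hN0
      simp only [φ, neg_sub, exp_sub, exp_log h, exp_log hpos]
      rw [mul_div_cancel₀ _ h.ne']
  let d : α → ℝ := fun x => ∑ a, ρ x a * φ x a
  have hd : ∑ x ∈ S, d x ≤ N * B := by
    have e : ∀ x, d x = -ent (ρ x) - ∑ a, ρ x a * log (μ a) := fun x => by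
      simp only [d, φ, ent, negMulLog, mul_sub, Finset.sum_sub_distrib, neg_mul,
        Finset.sum_neg_distrib, neg_neg]
    have e2 : ∑ x ∈ S, ∑ a, ρ x a * log (μ a) = -(N * ent μ) := by
      rw [Finset.sum_comm, ent, Finset.mul_sum, ← Finset.sum_neg_distrib]
      refine Finset.sum_congr rfl fun a _ => ?_
      rw [← Finset.sum_mul, negMulLog, hμdef]
      field_simp
    simp only [e, Finset.sum_sub_distrib, Finset.sum_neg_distrib, e2]
    have h1 : N * (n - B) ≤ ∑ x ∈ S, ent (ρ x) := by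
      have := Finset.sum_le_sum (f := fun _ => n - B) hB
      rwa [Finset.sum_const, nsmul_eq_mul, ← hN] at this
    have h2 := mul_le_mul_of_nonneg_left (hn μ hμΩ) hN0.le
    linarith
  set c : α → ℝ := fun x => 2 * (k * d x + 1) with hc
  set c0 : ℝ := 2 * (k * B + 1) with hc0
  have hc_nonneg : ∀ x ∈ S, 0 ≤ c x := by
    intro x hx
    have h : 0 ≤ d x := by
      have hpt : ∀ a, ρ x a - μ a ≤ ρ x a * φ x a := fun a => by
        nlinarith [hφ x hx a,
          mul_le_mul_of_nonneg_left (add_one_le_exp (-φ x a)) ((hρ x hx).1 a)]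
      have := Finset.sum_le_sum (s := univ) fun a _ => hpt a
      rw [Finset.sum_sub_distrib, (hρ x hx).2, hμ.2, sub_self] at this
      exact this
    simp only [hc]; positivity
  have hmass : ∑ x ∈ S, 3 / 4 * exp (-c x) ≤ 1 := by
    refine (Finset.sum_le_sum fun x hx => change_measure (hρ x hx) hμ (hφ x hx)
      (le_refl ((k : ℝ) * d x)) rfl (hc_nonneg x hx) (D x) (hD x hx)).trans ?_
    rw [← Finset.sum_biUnion hdisj, ← sum_wt k hμ]
    exact Finset.sum_le_univ_sum_of_nonneg fun t => wt_nonneg hμ t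
  have hjensen : N * exp (-c0) ≤ ∑ x ∈ S, exp (-c x) := by
    have hpt : ∀ x, exp (-c0) * (1 + c0 - c x) ≤ exp (-c x) := fun x => by
      calc exp (-c0) * (1 + c0 - c x) ≤ exp (-c0) * exp (c0 - c x) :=
            mul_le_mul_of_nonneg_left (by linarith [add_one_le_exp (c0 - c x)]) (exp_pos _).le
        _ = exp (-c x) := by rw [← exp_add]; congr 1; ring
    refine le_trans ?_ (Finset.sum_le_sum fun x _ => hpt x)
    rw [← Finset.mul_sum, mul_comm N]
    refine mul_le_mul_of_nonneg_left ?_ (exp_pos _).le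
    simp only [hc, Finset.sum_sub_distrib, Finset.sum_const, nsmul_eq_mul, ← hN, ← Finset.mul_sum,
      Finset.sum_add_distrib]
    nlinarith [mul_le_mul_of_nonneg_left hd (Nat.cast_nonneg k : (0 : ℝ) ≤ k), hc0]
  rw [← Finset.mul_sum] at hmass
  have h3 : N * exp (-c0) ≤ 4 / 3 := by linarith
  calc N = (N * exp (-c0)) * exp c0 := by
        rw [mul_assoc, ← exp_add, neg_add_cancel, exp_zero, mul_one]
    _ ≤ 4 / 3 * exp c0 := mul_le_mul_of_nonneg_right h3 (exp_pos _).le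

/-- The entropy is continuous. -/
theorem continuous_ent : Continuous (ent : (ι → ℝ) → ℝ) :=
  continuous_finsetSum _ fun a _ => continuous_negMulLog.comp (continuous_apply a)

theorem ent_combo {ρ μ : ι → ℝ} (hρ : ρ ∈ stdSimplex ℝ ι) (hμ : μ ∈ stdSimplex ℝ ι) {s t : ℝ}
    (hs : 0 ≤ s) (ht : 0 ≤ t) (hst : s + t = 1) :
    s * ent ρ + t * ent μ ≤ ent (s • ρ + t • μ) := by
  rw [ent, ent, ent, Finset.mul_sum, Finset.mul_sum, ← Finset.sum_add_distrib]
  refine Finset.sum_le_sum fun a _ => ?_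
  simpa using concaveOn_negMulLog.2 (Set.mem_Ici.2 (hρ.1 a)) (Set.mem_Ici.2 (hμ.1 a)) hs ht hst

theorem ent_le_log {ρ : ι → ℝ} (hρ : ρ ∈ stdSimplex ℝ ι) : ent ρ ≤ log (Fintype.card ι) := by
  have hne : (univ : Finset ι).Nonempty := by
    rcases isEmpty_or_nonempty ι with h | h
    · have := hρ.2; simp at this
    · exact Finset.univ_nonempty
  have hM : (0 : ℝ) < Fintype.card ι := by exact_mod_cast Finset.card_pos.2 hne
  have hpt : ∀ a, negMulLog (ρ a) - ρ a * log (Fintype.card ι) ≤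
      (1 : ℝ) / Fintype.card ι - ρ a := by
    intro a
    rcases (hρ.1 a).eq_or_lt with h | h
    · rw [← h]; simp
    · have h1 := mul_le_mul_of_nonneg_left
        (log_le_sub_one_of_pos (show (0 : ℝ) < 1 / (Fintype.card ι * ρ a) by positivity)) h.le
      rw [one_div, log_inv, log_mul hM.ne' h.ne'] at h1
      rw [negMulLog]
      have e : ρ a * ((Fintype.card ι * ρ a)⁻¹ - 1) = 1 / (Fintype.card ι : ℝ) - ρ a := by
        field_simp
      nlinarith
  have := Finset.sum_le_sum (s := univ) fun a _ => hpt a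
  rw [Finset.sum_sub_distrib, Finset.sum_sub_distrib, ← Finset.sum_mul, hρ.2, Finset.sum_const,
    Finset.card_univ, nsmul_eq_mul] at this
  rw [ent]
  have e : (Fintype.card ι : ℝ) * (1 / Fintype.card ι) = 1 := by field_simp
  linarith

end Vale.Agent.P126.Power
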