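import Vale.Agent.P126.Basic
import Vale.Agent.P126.Power.Sample

/-!
P126: the search. Either one functional of the polar removes a fixed fraction of the entropy
deficit, or the witness can be moved a little so that only a small fraction of the deficit remains.
-/

open Finset Real
open scoped RealInnerProductSpace Pointwise Classical

namespace Vale.Agent.P126.Power

variable {E : Type*} [NormedAddCommGroup E] [InnerProductSpace ℝ E]

/-- The barycentre of a probability vector on the points of `P`. -/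
def bary (P : Finset E) (ρ : P → ℝ) : E := ∑ a, ρ a • (a : E)

theorem inner_bary (P : Finset E) (ρ : P → ℝ) (y : E) :
    ⟪bary P ρ, y⟫ = ∑ a, ρ a * ⟪(a : E), y⟫ := by
  simp [bary, sum_inner, real_inner_smul_left]

theorem abs_inner_bary_le {P : Finset E} {ρ : P → ℝ} (hρ : ρ ∈ stdSimplex ℝ P) {y : E} {c : ℝ}
    (h : ∀ a ∈ P, |⟪a, y⟫| ≤ c) : |⟪bary P ρ, y⟫| ≤ c := by
  rw [inner_bary]
  calc |∑ a, ρ a * ⟪(a : E), y⟫| ≤ ∑ a, |ρ a * ⟪(a : E), y⟫| := Finset.abs_sum_le_sum_abs _ _
    _ ≤ ∑ a, ρ a * c := Finset.sum_le_sum fun a _ => by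
        rw [abs_mul, abs_of_nonneg (hρ.1 a)]
        exact mul_le_mul_of_nonneg_left (h a a.2) (hρ.1 a)
    _ = c := by rw [← Finset.sum_mul, hρ.2, one_mul]

theorem continuous_bary (P : Finset E) : Continuous (bary P) :=
  continuous_finsetSum _ fun a _ => (continuous_apply a).smul continuous_const

theorem bary_add (P : Finset E) (ρ μ : P → ℝ) (s t : ℝ) :
    bary P (s • ρ + t • μ) = s • bary P ρ + t • bary P μ := by
  simp [bary, add_smul, Finset.sum_add_distrib, Finset.smul_sum, smul_smul]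

theorem zero_mem_polar (L : Set E) : (0 : E) ∈ polar L := fun x _ => by
  rw [inner_zero_right]; exact zero_le_one

/-- A compact convex set of vectors with barycentres missing `z + r • L` is cut off by the polar. -/
theorem exists_cut [FiniteDimensional ℝ E] {L : Set E} (hL : IsBody L) {r : ℝ} (hr : 0 < r)
    {P : Finset E} {Ω : Set (P → ℝ)} (hΩ : Convex ℝ Ω) (hΩc : IsCompact Ω) (z : E)
    (hmiss : Disjoint (bary P '' Ω) ({z} + r • L)) :
    ∃ g ∈ polar L, ∀ μ ∈ Ω, r ≤ ⟪z, g⟫ - ⟪bary P μ, g⟫ := by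
  have hconv : Convex ℝ (bary P '' Ω) := by
    rintro _ ⟨ρ, hρ, rfl⟩ _ ⟨μ, hμ, rfl⟩ s t hs ht hst
    exact ⟨s • ρ + t • μ, hΩ hρ hμ hs ht hst, bary_add P ρ μ s t⟩
  obtain ⟨f, u, v, hu, huv, hv⟩ := geometric_hahn_banach_compact_closed hconv
    (hΩc.image (continuous_bary P)) ((convex_singleton z).add (hL.1.smul r))
    ((isCompact_singleton.add (hL.2.1.smul r)).isClosed) hmiss
  set e := (InnerProductSpace.toDual ℝ E).symm f with he
  have hfe : ∀ p, f p = ⟪p, e⟫ := fun p => by
    rw [he, real_inner_comm, InnerProductSpace.toDual_symm_apply]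
  have hvz : ∀ p ∈ L, v < f z + r * f p := fun p hp => by
    have := hv (z + r • p) (Set.add_mem_add (Set.mem_singleton z) (Set.smul_mem_smul_set hp))
    simpa using this
  have hd0 : 0 < f z - u := by
    have := hvz 0 hL.zero_mem
    simp only [map_zero, mul_zero, add_zero] at this
    linarith
  refine ⟨(r / (f z - u)) • e, fun p hp => ?_, fun μ hμ => ?_⟩
  · rw [real_inner_smul_right, ← hfe, div_mul_eq_mul_div, div_le_one hd0]
    have := hvz (-p) (hL.2.2.2 p hp)
    rw [map_neg] at this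
    linarith
  · rw [real_inner_smul_right, real_inner_smul_right, ← hfe, ← hfe, ← mul_sub, div_mul_eq_mul_div,
      le_div_iff₀ hd0]
    exact mul_le_mul_of_nonneg_left (by linarith [hu _ ⟨μ, hμ, rfl⟩]) hr.le

theorem sum_biUnion_le {α β : Type*} [DecidableEq β] (s : Finset α) (t : α → Finset β)
    {f : β → ℝ} (hf : ∀ b, 0 ≤ f b) :
    ∑ b ∈ s.biUnion t, f b ≤ ∑ a ∈ s, ∑ b ∈ t a, f b := by
  classical
  induction s using Finset.induction_on with
  | empty => simp
  | insert a s ha ih =>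
    rw [Finset.biUnion_insert, Finset.sum_insert ha]
    refine le_trans ?_ (add_le_add le_rfl ih)
    rw [← Finset.sum_union_inter]
    exact le_add_of_nonneg_right (Finset.sum_nonneg fun b _ => hf b)

/-- The fixed data of the search. -/
structure Setting (L : Set E) (P Q : Finset E) (η r w : ℝ) (R k : ℕ) : Prop where
  body : IsBody L
  sub : ↑P ⊆ L
  netSub : ↑Q ⊆ polar L
  net : ∀ y ∈ polar L, ∃ p ∈ Q, ∀ x ∈ P, |⟪x, y - p⟫| ≤ η
  sep : ∀ x ∈ P, ∀ x' ∈ P, x ≠ x' → ∃ y ∈ polar L, 1 / 4 < ⟪x - x', y⟫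
  eta_pos : 0 < η
  eta_small : 8 * η ≤ r
  w_pos : 0 < w
  margins : 2 * (w + R * r) + 2 * η ≤ 1 / 4
  sample : 2 * (Q.card : ℝ) * exp (-(k * w ^ 2 / 8)) ≤ 1 / 4

variable {L : Set E} {P Q : Finset E} {η r w : ℝ} {R k : ℕ}

/-- `S` is a group of points of `P` with witnesses in `Ω` of deficit `B`, after `l` moves. -/
structure Group (L : Set E) (P S : Finset E) (Ω : Set (P → ℝ)) (n B : ℝ) (l : ℕ) (r : ℝ) :
    Prop where
  sub : S ⊆ P
  conv : Convex ℝ Ω
  closed : IsClosed Ω
  simplex : Ω ⊆ stdSimplex ℝ P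
  top : ∀ ρ ∈ Ω, ent ρ ≤ n
  witness : ∀ x ∈ S, ∃ ρ ∈ Ω, n - B ≤ ent ρ ∧ ∀ g ∈ polar L, |⟪x - bary P ρ, g⟫| ≤ l * r

variable {S : Finset E} {Ω : Set (P → ℝ)} {n B θ Efin : ℝ} {l : ℕ}

theorem Setting.r_pos (hs : Setting L P Q η r w R k) : 0 < r := by
  linarith [hs.eta_pos, hs.eta_small]

/-- A group of small deficit has few points. -/
theorem Group.card_le (hs : Setting L P Q η r w R k) (hG : Group L P S Ω n B l r) (hl : l ≤ R) :
    (S.card : ℝ) ≤ 4 / 3 * exp (2 * (k * B + 1)) := by
  have hwit : ∀ x, ∃ ρ : P → ℝ, x ∈ S →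
      ρ ∈ Ω ∧ n - B ≤ ent ρ ∧ ∀ g ∈ polar L, |⟪x - bary P ρ, g⟫| ≤ l * r := by
    intro x
    by_cases hx : x ∈ S
    · obtain ⟨ρ, h1, h2, h3⟩ := hG.witness x hx
      exact ⟨ρ, fun _ => ⟨h1, h2, h3⟩⟩
    · exact ⟨0, fun h => absurd h hx⟩
  choose ρ hρ using hwit
  let D : E → Finset (Fin k → P) := fun x => univ.filter fun t =>
    ∀ g ∈ Q, |∑ i, (⟪(t i : E), g⟫ - ⟪bary P (ρ x), g⟫)| ≤ k * w
  have hbound : ∀ y ∈ polar L, ∀ a ∈ P, |⟪a, y⟫| ≤ 1 := fun y hy a ha =>
    hs.body.abs_inner_le (hs.sub ha) hy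
  refine count_le S ρ (fun x hx => hG.simplex (hρ x hx).1) hG.conv (fun x hx => (hρ x hx).1)
    hG.top (fun x hx => (hρ x hx).2.1) D (fun x hx => ?_) ?_
  · have hst := hG.simplex (hρ x hx).1
    have h1 := Finset.sum_sdiff (f := fun t => wt (ρ x) t) (Finset.subset_univ (D x))
    rw [sum_wt k hst] at h1
    suffices h2 : ∑ t ∈ univ \ D x, wt (ρ x) t ≤ 1 / 4 by linarith
    let u : E → P → ℝ := fun g a => ⟪(a : E), g⟫ - ⟪bary P (ρ x), g⟫
    have hu : ∀ g ∈ Q, ∀ a, |u g a| ≤ 2 := fun g hg a => (abs_sub _ _).trans (by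
      linarith [hbound g (hs.netSub hg) a a.2,
        abs_inner_bary_le hst (fun a ha => hbound g (hs.netSub hg) a ha)])
    have hmean : ∀ g, ∑ a, ρ x a * u g a = 0 := fun g => by
      simp only [u, mul_sub, Finset.sum_sub_distrib, ← Finset.sum_mul, hst.2, one_mul,
        ← inner_bary, sub_self]
    let bad : E → Finset (Fin k → P) := fun g =>
      univ.filter (fun t : Fin k → P => k * w < ∑ i, u g (t i)) ∪
      univ.filter (fun t : Fin k → P => k * w < ∑ i, -u g (t i))
    have hsub : univ \ D x ⊆ Q.biUnion bad := by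
      intro t ht
      simp only [D, Finset.mem_sdiff, Finset.mem_univ, true_and, Finset.mem_filter, not_forall,
        not_le, exists_prop] at ht
      obtain ⟨g, hg, hgt⟩ := ht
      refine Finset.mem_biUnion.2 ⟨g, hg, ?_⟩
      simp only [bad, Finset.mem_union, Finset.mem_filter, Finset.mem_univ, true_and, u,
        Finset.sum_neg_distrib]
      exact lt_abs.1 hgt
    refine (Finset.sum_le_sum_of_subset_of_nonneg hsub fun t _ _ => wt_nonneg hst t).trans ?_
    refine (sum_biUnion_le Q bad (fun t => wt_nonneg hst t)).trans ?_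
    refine le_trans (Finset.sum_le_sum (g := fun _ => exp (-(k * w ^ 2 / 8)) + exp (-(k * w ^ 2 / 8))) fun g hg => ?_) (le_trans (le_of_eq ?_) hs.sample)
    · refine le_trans ?_ (add_le_add (tail_le k hst (hu g hg) (hmean g) hs.w_pos.le)
        (tail_le k hst (u := fun a => -u g a) (fun a => by rw [abs_neg]; exact hu g hg a)
          (by simp only [mul_neg, Finset.sum_neg_distrib, hmean g, neg_zero]) hs.w_pos.le))
      simp only [bad]
      rw [← Finset.sum_union_inter]
      exact le_add_of_nonneg_right (Finset.sum_nonneg fun t _ => wt_nonneg hst t)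
    · rw [Finset.sum_const, nsmul_eq_mul]; ring
  · intro x hx x' hx' hne
    rw [Function.onFun, Finset.disjoint_left]
    intro t ht ht'
    obtain ⟨y, hy, hxy⟩ := hs.sep x (hG.sub hx) x' (hG.sub hx') hne
    obtain ⟨g, hg, hgy⟩ := hs.net y hy
    have a1 := abs_le.1 (hgy x (hG.sub hx))
    have a2 := abs_le.1 (hgy x' (hG.sub hx'))
    have b1 := abs_le.1 ((hρ x hx).2.2 g (hs.netSub hg))
    have b2 := abs_le.1 ((hρ x' hx').2.2 g (hs.netSub hg))
    have c1 := abs_le.1 ((Finset.mem_filter.1 ht).2 g hg)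
    have c2 := abs_le.1 ((Finset.mem_filter.1 ht').2 g hg)
    have hk : 0 < (k : ℝ) := by
      by_contra hk
      have hk0 : (k : ℝ) = 0 := le_antisymm (not_lt.1 hk) (Nat.cast_nonneg k)
      have := hs.sample
      rw [hk0, zero_mul, zero_div, neg_zero, exp_zero, mul_one] at this
      have : (1 : ℝ) ≤ Q.card := by exact_mod_cast Finset.card_pos.2 ⟨g, hg⟩
      linarith
    rw [Finset.sum_sub_distrib, Finset.sum_const, Finset.card_univ, Fintype.card_fin,
      nsmul_eq_mul] at c1 c2
    rw [inner_sub_left] at hxy b1 b2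
    rw [inner_sub_right] at a1 a2
    have hl' : (l : ℝ) * r ≤ R * r :=
      mul_le_mul_of_nonneg_right (by exact_mod_cast hl) hs.r_pos.le
    have key : (k : ℝ) * (⟪bary P (ρ x), g⟫ - ⟪bary P (ρ x'), g⟫) ≤ k * (2 * w) := by linarith
    have := le_of_mul_le_mul_left key hk
    linarith [hs.margins]

/-- The number of symbols at a gain step. -/
noncomputable def symbols (Q : Finset E) (η : ℝ) : ℕ := Q.card * (2 * (⌈1 / η⌉₊ + 1) + 1)

/-- The recursion over the gains and moves left. -/
theorem Group.bound [FiniteDimensional ℝ E] (hs : Setting L P Q η r w R k) (hθ0 : 0 < θ) (hθ1 : θ ≤ 1) :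
    ∀ i j : ℕ, ∀ (S : Finset E) (Ω : Set (P → ℝ)) (n B : ℝ) (l : ℕ), Group L P S Ω n B l r →
      0 ≤ B → l + j ≤ R → B * θ ^ j ≤ Efin → B * (1 - θ) ^ i ≤ Efin →
      (S.card : ℝ) ≤ (2 * symbols Q η : ℕ) ^ i * 2 ^ j * (4 / 3 * exp (2 * (k * Efin + 1))) := by
  have hfin : ∀ (i j : ℕ) (S : Finset E) (Ω : Set (P → ℝ)) (n B : ℝ) (l : ℕ),
      Group L P S Ω n B l r → l ≤ R → B ≤ Efin →
      (S.card : ℝ) ≤ (2 * symbols Q η : ℕ) ^ i * 2 ^ j * (4 / 3 * exp (2 * (k * Efin + 1))) := by
    intro i j S Ω n B l hG hl hB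
    have h := (hG.card_le hs hl).trans (mul_le_mul_of_nonneg_left (exp_le_exp.2
      (show 2 * ((k : ℝ) * B + 1) ≤ 2 * (k * Efin + 1) by
        linarith [mul_le_mul_of_nonneg_left hB (Nat.cast_nonneg k : (0 : ℝ) ≤ k)]))
      (by norm_num : (0 : ℝ) ≤ 4 / 3))
    rcases S.eq_empty_or_nonempty with rfl | ⟨x, hx⟩
    · simp; positivity
    · have hq : 1 ≤ 2 * symbols Q η := by
        obtain ⟨g, hg, -⟩ := hs.net 0 (zero_mem_polar L)
        have : 0 < Q.card := Finset.card_pos.2 ⟨g, hg⟩
        unfold symbols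
        nlinarith
      refine h.trans (le_mul_of_one_le_left (by positivity) ?_)
      exact one_le_mul_of_one_le_of_one_le (one_le_pow₀ (by exact_mod_cast hq))
        (one_le_pow₀ one_le_two)
  intro i
  induction i with
  | zero =>
    intro j S Ω n B l hG hB0 hl hj hi
    exact hfin 0 j S Ω n B l hG (by omega) (by simpa using hi)
  | succ i ihi =>
    intro j
    induction j with
    | zero =>
      intro S Ω n B l hG hB0 hl hj hi
      exact hfin _ 0 S Ω n B l hG (by omega) (by simpa using hj)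
    | succ j ihj =>
      intro S Ω n B l hG hB0 hl hj hi
      set C0 : ℝ := 4 / 3 * exp (2 * (k * Efin + 1)) with hC0
      set Ω2 : Set (P → ℝ) := Ω ∩ {ρ | n - θ * B ≤ ent ρ} with hΩ2
      have hΩ2conv : Convex ℝ Ω2 := by
        rintro ρ ⟨hρ, hρe⟩ μ ⟨hμ, hμe⟩ s t hs' ht' hst
        refine ⟨hG.conv hρ hμ hs' ht' hst, le_trans ?_
          (ent_combo (hG.simplex hρ) (hG.simplex hμ) hs' ht' hst)⟩
        have h1 := mul_le_mul_of_nonneg_left hρe hs'
        have h2 := mul_le_mul_of_nonneg_left hμe ht'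
        have h3 : s * (n - θ * B) + t * (n - θ * B) = n - θ * B := by
          rw [← add_mul, hst, one_mul]
        linarith
      have hΩ2cpt : IsCompact Ω2 :=
        (isCompact_stdSimplex ℝ P).of_isClosed_subset
          (hG.closed.inter (isClosed_le continuous_const continuous_ent))
          (Set.inter_subset_left.trans hG.simplex)
      let movable : E → Prop := fun x =>
        ∃ μ ∈ Ω2, ∀ g ∈ polar L, |⟪x - bary P μ, g⟫| ≤ ((l + 1 : ℕ) : ℝ) * r
      set S1 := S.filter movable with hS1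
      set S2 := S.filter (fun x => ¬ movable x) with hS2
      have hpos : 0 ≤ θ * B := mul_nonneg hθ0.le hB0
      have h1 : (S1.card : ℝ) ≤ (2 * symbols Q η : ℕ) ^ (i + 1) * 2 ^ j * C0 := by
        refine ihj S1 Ω n (θ * B) (l + 1) ⟨(Finset.filter_subset _ _).trans hG.sub, hG.conv,
          hG.closed, hG.simplex, hG.top, fun x hx => ?_⟩ hpos (by omega) ?_ ?_
        · obtain ⟨μ, ⟨hμ, hμe⟩, hμx⟩ := (Finset.mem_filter.1 hx).2
          exact ⟨μ, hμ, hμe, hμx⟩
        · calc θ * B * θ ^ j = B * θ ^ (j + 1) := by ring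
            _ ≤ Efin := hj
        · calc θ * B * (1 - θ) ^ (i + 1) ≤ B * (1 - θ) ^ (i + 1) :=
                mul_le_mul_of_nonneg_right (mul_le_of_le_one_left hB0 hθ1)
                  (pow_nonneg (by linarith) _)
            _ ≤ Efin := hi
      -- the points that cannot move receive one symbol each
      let N : ℕ := ⌈1 / η⌉₊ + 1
      let cut : E × ℤ → Set (P → ℝ) := fun c => Ω ∩ {ρ | (c.2 : ℝ) * η ≤ ⟪bary P ρ, c.1⟫}
      have hsym : ∀ x ∈ S2, ∃ c ∈ Q ×ˢ Finset.Icc (-(N : ℤ)) N,
          (∀ μ ∈ cut c, ent μ ≤ n - θ * B) ∧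
          ∃ ρ ∈ cut c, n - B ≤ ent ρ ∧ ∀ g ∈ polar L, |⟪x - bary P ρ, g⟫| ≤ l * r := by
        intro x hx
        obtain ⟨hxS, hxm⟩ := Finset.mem_filter.1 hx
        obtain ⟨ρ, hρ, hρe, hρx⟩ := hG.witness x hxS
        have hmiss : Disjoint (bary P '' Ω2) ({bary P ρ} + r • L) := by
          rw [Set.disjoint_left]
          rintro z ⟨μ, hμ, rfl⟩ hz
          obtain ⟨v, hv, u, hu, hvu⟩ := Set.mem_add.1 hz
          rw [Set.mem_singleton_iff] at hv
          subst hv
          obtain ⟨z, hzL, rfl⟩ := Set.mem_smul_set.1 hu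
          refine hxm ⟨μ, hμ, fun g hg => ?_⟩
          rw [← hvu, show x - (bary P ρ + r • z) = (x - bary P ρ) - r • z by abel,
            inner_sub_left, real_inner_smul_left]
          refine (abs_sub _ _).trans ?_
          rw [abs_mul, abs_of_pos hs.r_pos]
          have := mul_le_mul_of_nonneg_left (hs.body.abs_inner_le hzL hg) hs.r_pos.le
          push_cast
          linarith [hρx g hg]
        obtain ⟨g, hg, hgsep⟩ := exists_cut hs.body hs.r_pos hΩ2conv hΩ2cpt (bary P ρ) hmiss
        obtain ⟨p, hp, hpg⟩ := hs.net g hg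
        have hbd : ∀ {μ : P → ℝ}, μ ∈ stdSimplex ℝ P → |⟪bary P μ, g - p⟫| ≤ η := fun hμ =>
          abs_inner_bary_le hμ hpg
        set v := ⟪bary P ρ, p⟫ with hv
        have hv1 : |v| ≤ 1 := abs_inner_bary_le (hG.simplex hρ) fun a ha =>
          hs.body.abs_inner_le (hs.sub ha) (hs.netSub hp)
        have hb1 := Int.floor_le (v / η)
        have hb2 := Int.lt_floor_add_one (v / η)
        have hη := hs.eta_pos
        rw [le_div_iff₀ hη] at hb1
        rw [div_lt_iff₀ hη] at hb2
        refine ⟨(p, ⌊v / η⌋), Finset.mem_product.2 ⟨hp, Finset.mem_Icc.2 ?_⟩, ?_, ?_⟩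
        · have hN : 1 / η + 1 ≤ (N : ℝ) := by
            simp only [N]; push_cast; linarith [Nat.le_ceil (1 / η)]
          obtain ⟨hv2, hv3⟩ := abs_le.1 hv1
          have e1 : -(1 / η) ≤ v / η := by rw [← neg_div]; gcongr
          have e2 : v / η ≤ 1 / η := by gcongr
          constructor
          · rw [Int.le_floor]; push_cast; linarith
          · rw [Int.floor_le_iff]; push_cast; linarith
        · rintro μ ⟨hμ, hμc⟩
          by_contra hcon
          have hμ2 : μ ∈ Ω2 := ⟨hμ, (not_le.1 hcon).le⟩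
          have h3 := hgsep μ hμ2
          have h4 := abs_le.1 (hbd (hG.simplex hμ))
          have h5 := abs_le.1 (hbd (hG.simplex hρ))
          simp only [Set.mem_ofPred_eq] at hμc
          rw [inner_sub_right] at h4 h5
          nlinarith [hs.eta_small, hs.r_pos]
        · exact ⟨ρ, ⟨hρ, hb1⟩, hρe, hρx⟩
      choose! code hcode using hsym
      have h2 : (S2.card : ℝ) ≤ (symbols Q η : ℕ) *
          ((2 * symbols Q η : ℕ) ^ i * 2 ^ (j + 1) * C0) := by
        set G := (Q ×ˢ Finset.Icc (-(N : ℤ)) N) with hGdef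
        have hfib := Finset.card_eq_sum_card_fiberwise (f := code) (t := G)
          (fun x hx => (hcode x hx).1)
        have hGcard : G.card = symbols Q η := by
          rw [hGdef, Finset.card_product, Int.card_Icc, symbols]
          simp only [N]
          congr 1
          omega
        rw [hfib, Nat.cast_sum]
        refine (Finset.sum_le_sum fun c _ => ?_).trans (le_of_eq ?_) (b := ∑ _c ∈ G,
          ((2 * symbols Q η : ℕ) : ℝ) ^ i * 2 ^ (j + 1) * C0)
        · rcases (S2.filter fun x => code x = c).eq_empty_or_nonempty with h0 | ⟨x0, hx0⟩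
          · rw [h0]; simp only [Finset.card_empty, Nat.cast_zero]; positivity
          obtain ⟨hx0', hc0⟩ := Finset.mem_filter.1 hx0
          subst hc0
          clear hx0
          have hx0 := hx0'
          refine ihi (j + 1) _ (cut (code x0)) (n - θ * B) ((1 - θ) * B) l ⟨?_, ?_, ?_, ?_,
            (hcode x0 hx0).2.1, fun x hx => ?_⟩ (mul_nonneg (by linarith) hB0) hl ?_ ?_
          · exact ((Finset.filter_subset _ _).trans (Finset.filter_subset _ _)).trans hG.sub
          · refine hG.conv.inter ?_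
            intro ρ hρ μ hμ s t hs' ht' hst
            simp only [Set.mem_ofPred_eq] at hρ hμ ⊢
            rw [bary_add, inner_add_left, real_inner_smul_left, real_inner_smul_left]
            have h6 := mul_le_mul_of_nonneg_left hρ hs'
            have h7 := mul_le_mul_of_nonneg_left hμ ht'
            have h8 := add_le_add h6 h7
            rwa [← add_mul, hst, one_mul] at h8
          · exact hG.closed.inter
              (isClosed_le continuous_const ((continuous_bary P).inner continuous_const))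
          · exact Set.inter_subset_left.trans hG.simplex
          · obtain ⟨hxS2, hxc⟩ := Finset.mem_filter.1 hx
            obtain ⟨ρ, hρ, hρe, hρx⟩ := (hcode x hxS2).2.2
            exact ⟨ρ, hxc ▸ hρ, by linarith, hρx⟩
          · calc (1 - θ) * B * θ ^ (j + 1) ≤ B * θ ^ (j + 1) :=
                  mul_le_mul_of_nonneg_right (mul_le_of_le_one_left hB0 (by linarith))
                    (pow_nonneg hθ0.le _)
              _ ≤ Efin := hj
          · calc (1 - θ) * B * (1 - θ) ^ i = B * (1 - θ) ^ (i + 1) := by ring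
              _ ≤ Efin := hi
        · rw [Finset.sum_const, nsmul_eq_mul, hGcard]
      have hsplit : (S.card : ℝ) = S1.card + S2.card := by
        exact_mod_cast (Finset.card_filter_add_card_filter_not (s := S) movable).symm
      rw [hsplit]
      refine (add_le_add h1 h2).trans (le_of_eq ?_)
      push_cast
      ring

end Vale.Agent.P126.Power
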